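import Mathlib

/-!
A homotopy bound for the signed Jacobian push-forward of a smooth map.
-/

open Function MeasureTheory Set Filter Topology

namespace Vale.Agent.P127.Regular

noncomputable section

variable {m : ℕ}

/-- The determinant as a continuous multilinear map of the rows. -/
def Dt (m : ℕ) : ContinuousMultilinearMap ℝ (fun _ : Fin m => Fin m → ℝ) ℝ :=
  ⟨(Matrix.detRowAlternating (n := Fin m) (R := ℝ)).toMultilinearMap,
    Continuous.matrix_det (continuous_id : Continuous fun x : Matrix (Fin m) (Fin m) ℝ => x)⟩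

theorem Dt_apply (R : Fin m → Fin m → ℝ) : Dt m R = Matrix.det (Matrix.of R) := rfl

/-- The partial derivatives of a map, as rows. -/
def rows (F : (Fin m → ℝ) → Fin m → ℝ) (v : Fin m → ℝ) : Fin m → Fin m → ℝ :=
  fun i => fderiv ℝ F v (Pi.single i 1)

theorem Dt_swap (R : Fin m → Fin m → ℝ) {i k : Fin m} (h : i ≠ k) :
    Dt m (R ∘ Equiv.swap i k) = -Dt m R :=
  (Matrix.detRowAlternating (n := Fin m) (R := ℝ)).map_swap R h

theorem cramer_sum (R : Fin m → Fin m → ℝ) (Y : Fin m → ℝ) (l : (Fin m → ℝ) →L[ℝ] ℝ) :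
    ∑ i, l (R i) * Dt m (update R i Y) = l Y * Dt m R := by
  have h : ∑ i, (Dt m (update R i Y)) • R i = Dt m R • Y := by
    funext k
    have hc := congrFun (Matrix.mulVec_cramer (Matrix.of R).transpose Y) k
    simp only [Matrix.mulVec, dotProduct, Matrix.det_transpose, Pi.smul_apply,
      Matrix.cramer_transpose_apply, Matrix.transpose_apply, Matrix.of_apply] at hc
    rw [Finset.sum_apply]
    simp only [Pi.smul_apply, smul_eq_mul, Dt_apply]
    refine (Finset.sum_congr rfl fun i _ => ?_).trans hc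
    rw [mul_comm]
    rfl
  have h2 := congrArg l h
  simp only [map_sum, map_smul, smul_eq_mul] at h2
  rw [mul_comm (l Y), ← h2]
  exact Finset.sum_congr rfl fun i _ => mul_comm _ _

/-- The vector field whose divergence is the time derivative of the pulled back form. -/
def field (φ : (Fin m → ℝ) → ℝ) (F Y : (Fin m → ℝ) → Fin m → ℝ) (i : Fin m) (v : Fin m → ℝ) : ℝ :=
  φ (F v) * Dt m (update (rows F v) i (Y v))

theorem field_contDiff {φ : (Fin m → ℝ) → ℝ} {F Y : (Fin m → ℝ) → Fin m → ℝ} (hφ : ContDiff ℝ 1 φ)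
    (hF : ContDiff ℝ 2 F) (hY : ContDiff ℝ 1 Y) (i : Fin m) : ContDiff ℝ 1 (field φ F Y i) := by
  have hR : ∀ k, ContDiff ℝ 1 fun v => fderiv ℝ F v (Pi.single k 1) := fun k =>
    (hF.fderiv_right (by norm_num)).clm_apply contDiff_const
  refine (hφ.comp (hF.of_le (by norm_num))).mul ((Dt m).contDiff.comp ?_)
  refine contDiff_pi.2 fun k => ?_
  rcases eq_or_ne k i with rfl | h
  · simpa using hY
  · simpa [update_of_ne h, rows] using hR k

/-- The divergence identity (Piola). -/
theorem divergence {φ : (Fin m → ℝ) → ℝ} {F Y : (Fin m → ℝ) → Fin m → ℝ} (hφ : ContDiff ℝ 1 φ)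
    (hF : ContDiff ℝ 2 F) (hY : ContDiff ℝ 1 Y) (v : Fin m → ℝ) :
    ∑ i, fderiv ℝ (field φ F Y i) v (Pi.single i 1) =
      fderiv ℝ φ (F v) (Y v) * Dt m (rows F v) +
        φ (F v) * ∑ i, Dt m (update (rows F v) i (fderiv ℝ Y v (Pi.single i 1))) := by
  classical
  set e : Fin m → Fin m → ℝ := fun i => Pi.single i 1 with he
  set S : Fin m → Fin m → Fin m → ℝ := fun i k => fderiv ℝ (fderiv ℝ F) v (e i) (e k) with hS
  have hdF : DifferentiableAt ℝ (fderiv ℝ F) v :=
    ((hF.fderiv_right (m := 1) (by norm_num)).differentiable one_ne_zero).differentiableAt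
  have hsym : ∀ i k, S i k = S k i := fun i k =>
    hF.contDiffAt.isSymmSndFDerivAt (by simp) _ _
  have hφd : ∀ x, HasFDerivAt φ (fderiv ℝ φ x) x := fun x =>
    ((hφ.differentiable one_ne_zero) x).hasFDerivAt
  have hFd : HasFDerivAt F (fderiv ℝ F v) v :=
    ((hF.differentiable two_ne_zero) v).hasFDerivAt
  have hYd : HasFDerivAt Y (fderiv ℝ Y v) v :=
    ((hY.differentiable one_ne_zero) v).hasFDerivAt
  set R := rows F v with hR
  have hterm : ∀ i, fderiv ℝ (field φ F Y i) v (e i) =
      fderiv ℝ φ (F v) (R i) * Dt m (update R i (Y v)) +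
        φ (F v) * ∑ k, Dt m (update (update R i (Y v)) k
          (if k = i then fderiv ℝ Y v (e i) else S i k)) := by
    intro i
    set T : Fin m → (Fin m → ℝ) →L[ℝ] Fin m → ℝ := fun k =>
      if k = i then fderiv ℝ Y v
      else (ContinuousLinearMap.apply ℝ _ (e k)).comp (fderiv ℝ (fderiv ℝ F) v) with hT
    have hU : HasFDerivAt (fun x => update (rows F x) i (Y x)) (ContinuousLinearMap.pi T) v := by
      refine hasFDerivAt_pi.2 fun k => ?_
      rcases eq_or_ne k i with rfl | h
      · simpa [hT] using hYd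
      · simp only [hT, if_neg h, update_of_ne h, rows]
        exact ((ContinuousLinearMap.apply ℝ (Fin m → ℝ) (e k)).hasFDerivAt).comp v hdF.hasFDerivAt
    have hD := ((Dt m).hasFDerivAt (update R i (Y v))).comp v hU
    have hP := ((hφd (F v)).comp v hFd).mul hD
    show fderiv ℝ (field φ F Y i) v (e i) = _
    rw [show field φ F Y i = (φ ∘ F) * (⇑(Dt m) ∘ fun x => update (rows F x) i (Y x))
      from rfl, hP.fderiv]
    simp only [_root_.add_apply, _root_.smul_apply, ContinuousLinearMap.comp_apply,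
      Function.comp_apply, smul_eq_mul, ContinuousMultilinearMap.linearDeriv_apply]
    rw [add_comm, mul_comm (fderiv ℝ φ (F v) _)]
    congr 2
    refine Finset.sum_congr rfl fun k _ => ?_
    congr 2
    simp only [ContinuousLinearMap.pi_apply, hT]
    split <;> rfl
  set f : Fin m → Fin m → ℝ := fun i k =>
    if k = i then 0 else Dt m (update (update R i (Y v)) k (S i k)) with hf
  have hanti : ∀ i k, f k i = -f i k := by
    intro i k
    rcases eq_or_ne k i with rfl | h
    · simp [hf]
    simp only [hf, if_neg h, if_neg h.symm]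
    rw [← Dt_swap _ h.symm, hsym k i]
    congr 1
    funext j
    rcases eq_or_ne j i with rfl | hji
    · simp
    rcases eq_or_ne j k with rfl | hjk
    · simp [h, h.symm]
    · simp [Equiv.swap_apply_of_ne_of_ne hji hjk, hji, hjk]
  have hzero : ∑ i, ∑ k, f i k = 0 := by
    have h1 : ∑ i, ∑ k, f k i = ∑ i, ∑ k, f i k := Finset.sum_comm
    have h2 : ∀ i, ∑ k, f k i = -∑ k, f i k := fun i => by
      rw [← Finset.sum_neg_distrib]
      exact Finset.sum_congr rfl fun k _ => hanti i k
    simp only [h2, Finset.sum_neg_distrib] at h1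
    linarith
  have hsplit : ∀ i, ∑ k, Dt m (update (update R i (Y v)) k
      (if k = i then fderiv ℝ Y v (e i) else S i k)) =
        Dt m (update R i (fderiv ℝ Y v (e i))) + ∑ k, f i k := by
    intro i
    rw [← Finset.add_sum_erase _ _ (Finset.mem_univ i),
      ← Finset.add_sum_erase _ (f i) (Finset.mem_univ i)]
    have hfi : f i i = 0 := by simp [hf]
    rw [if_pos rfl, update_idem, hfi, zero_add]
    congr 1
    refine Finset.sum_congr rfl fun k hk => ?_
    simp [hf, Finset.ne_of_mem_erase hk]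
  show ∑ i, fderiv ℝ (field φ F Y i) v (e i) = _
  simp only [hterm, hsplit, Finset.sum_add_distrib, mul_add, ← Finset.mul_sum, hzero, mul_zero,
    add_zero]
  rw [cramer_sum]

/-- The signed push-forward evaluated at a test function. -/
def push (χ φ : (Fin m → ℝ) → ℝ) (F : (Fin m → ℝ) → Fin m → ℝ) : ℝ :=
  ∫ v, χ v * (φ (F v) * Dt m (rows F v))

/-- Homotopy bound. -/
theorem push_sub_le {χ φ : (Fin m → ℝ) → ℝ} {F₀ F₁ : (Fin m → ℝ) → Fin m → ℝ}
    (hχ : ContDiff ℝ 1 χ) (hχs : HasCompactSupport χ) (hφ : ContDiff ℝ 1 φ)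
    (hφ1 : ∀ y, |φ y| ≤ 1) (h₀ : ContDiff ℝ 2 F₀) (h₁ : ContDiff ℝ 2 F₁) {η L : ℝ}
    (hd : ∀ v, ‖F₁ v - F₀ v‖ ≤ η) (hL₀ : ∀ v i, ‖rows F₀ v i‖ ≤ L)
    (hL₁ : ∀ v i, ‖rows F₁ v i‖ ≤ L) :
    |push χ φ F₁ - push χ φ F₀| ≤
      ‖Dt m‖ * (∑ i : Fin m, ∫ v, |fderiv ℝ χ v (Pi.single i 1)|) * (η * L ^ (m - 1)) := by
  classical
  set Y : (Fin m → ℝ) → Fin m → ℝ := fun v => F₁ v - F₀ v with hYdef
  have hY : ContDiff ℝ 2 Y := h₁.sub h₀
  set F : ℝ → (Fin m → ℝ) → Fin m → ℝ := fun s v => F₀ v + s • Y v with hFdef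
  have hF : ∀ s, ContDiff ℝ 2 (F s) := fun s => h₀.add (hY.const_smul s)
  have hrow : ∀ s v i, rows (F s) v i = rows F₀ v i + s • rows Y v i := by
    intro s v i
    have d₀ := (h₀.differentiable two_ne_zero) v
    have dY := (hY.differentiable two_ne_zero) v
    show fderiv ℝ (fun v => F₀ v + s • Y v) v _ = _
    rw [fderiv_fun_add d₀ (show DifferentiableAt ℝ (fun y => s • Y y) v from dY.const_smul s),
      fderiv_fun_const_smul dY s]
    rfl
  set D' : ℝ → (Fin m → ℝ) → ℝ := fun s v => χ v *
    (fderiv ℝ φ (F s v) (Y v) * Dt m (rows (F s) v) +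
      φ (F s v) * ∑ i, Dt m (update (rows (F s) v) i (rows Y v i))) with hD'
  have hder : ∀ s v, HasDerivAt (fun s => χ v * (φ (F s v) * Dt m (rows (F s) v))) (D' s v) s := by
    intro s v
    have h1 : HasDerivAt (fun s => F s v) (Y v) s := by
      simpa [hFdef] using ((hasDerivAt_id s).smul_const (Y v)).const_add (F₀ v)
    have h2 : HasDerivAt (fun s => rows (F s) v) (rows Y v) s := by
      have : (fun s => rows (F s) v) = fun s => rows F₀ v + s • rows Y v := by
        funext s i; simp [hrow]
      rw [this]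
      simpa using ((hasDerivAt_id s).smul_const (rows Y v)).const_add (rows F₀ v)
    have h3 := (((hφ.differentiable one_ne_zero) (F s v)).hasFDerivAt).comp_hasDerivAt s h1
    have h4 := ((Dt m).hasFDerivAt (rows (F s) v)).comp_hasDerivAt s h2
    have := (h3.mul h4).const_mul (χ v)
    simpa [hD', ContinuousMultilinearMap.linearDeriv_apply, Function.comp_def] using this
  have hr0 : Continuous fun v => rows F₀ v :=
    continuous_pi fun i => ((h₀.continuous_fderiv two_ne_zero).clm_apply continuous_const)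
  have hrY : Continuous fun v => rows Y v :=
    continuous_pi fun i => ((hY.continuous_fderiv two_ne_zero).clm_apply continuous_const)
  have hFc : Continuous fun p : ℝ × (Fin m → ℝ) => F p.1 p.2 :=
    (h₀.continuous.comp continuous_snd).add (continuous_fst.smul (hY.continuous.comp continuous_snd))
  have hRc : Continuous fun p : ℝ × (Fin m → ℝ) => rows (F p.1) p.2 := by
    refine continuous_pi fun i => ?_
    simp only [hrow]
    exact ((continuous_apply i).comp (hr0.comp continuous_snd)).add
      (continuous_fst.smul ((continuous_apply i).comp (hrY.comp continuous_snd)))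
  have hDc : Continuous fun p : ℝ × (Fin m → ℝ) => D' p.1 p.2 := by
    refine (hχ.continuous.comp continuous_snd).mul (Continuous.add ?_ ?_)
    · exact (((hφ.continuous_fderiv one_ne_zero).comp hFc).clm_apply
        (hY.continuous.comp continuous_snd)).mul ((Dt m).cont.comp hRc)
    · refine (hφ.continuous.comp hFc).mul (continuous_finsetSum _ fun i _ => (Dt m).cont.comp ?_)
      exact hRc.update i ((continuous_apply i).comp (hrY.comp continuous_snd))
  obtain ⟨B, hB⟩ : ∃ B, ∀ p ∈ Icc (-1 : ℝ) 2 ×ˢ tsupport χ, ‖D' p.1 p.2‖ ≤ B :=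
    (isCompact_Icc.prod hχs).exists_bound_of_continuousOn hDc.continuousOn
  set I : ℝ → ℝ := fun s => push χ φ (F s) with hI
  have hgc : ∀ s, Continuous fun v => χ v * (φ (F s v) * Dt m (rows (F s) v)) := fun s =>
    hχ.continuous.mul ((hφ.continuous.comp (hFc.comp (Continuous.prodMk_right s))).mul
      ((Dt m).cont.comp (hRc.comp (Continuous.prodMk_right s))))
  have hId : ∀ s ∈ Icc (0 : ℝ) 1, HasDerivAt I (∫ v, D' s v) s := by
    intro s hs
    have hnb : Ioo (-1 : ℝ) 2 ∈ 𝓝 s := Ioo_mem_nhds (by linarith [hs.1]) (by linarith [hs.2])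
    refine (hasDerivAt_integral_of_dominated_loc_of_deriv_le
      (bound := (tsupport χ).indicator fun _ => B) hnb
      (Eventually.of_forall fun s => (hgc s).aestronglyMeasurable)
      ((hgc s).integrable_of_hasCompactSupport hχs.mul_right)
      (hDc.comp (Continuous.prodMk_right s)).aestronglyMeasurable
      (Eventually.of_forall fun v x hx => ?_)
      ((integrable_indicator_iff hχs.isClosed.measurableSet).2
        (integrableOn_const hχs.measure_lt_top.ne))
      (Eventually.of_forall fun v x _ => hder x v)).2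
    by_cases hv : v ∈ tsupport χ
    · simpa [hv] using hB (x, v) ⟨Ioo_subset_Icc_self hx, hv⟩
    · simp [hv, hD', image_eq_zero_of_notMem_tsupport hv]
  have hbound : ∀ s ∈ Ico (0 : ℝ) 1, ‖∫ v, D' s v‖ ≤
      ‖Dt m‖ * (∑ i : Fin m, ∫ v, |fderiv ℝ χ v (Pi.single i 1)|) * (η * L ^ (m - 1)) := by
    intro s hs
    have hX : ∀ i, ContDiff ℝ 1 (field φ (F s) Y i) := fun i =>
      field_contDiff hφ (hF s) (hY.of_le (by norm_num)) i
    have hXb : ∀ i v, |field φ (F s) Y i v| ≤ ‖Dt m‖ * (η * L ^ (m - 1)) := by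
      intro i v
      rw [field, abs_mul]
      refine (mul_le_of_le_one_left (abs_nonneg _) (hφ1 _)).trans ?_
      refine ((Dt m).le_opNorm _).trans (mul_le_mul_of_nonneg_left ?_ (norm_nonneg _))
      rw [← Finset.mul_prod_erase _ _ (Finset.mem_univ i), update_self]
      refine mul_le_mul (hd v) ?_ (Finset.prod_nonneg fun k _ => norm_nonneg _)
        ((norm_nonneg _).trans (hd v))
      refine (Finset.prod_le_prod (fun k _ => norm_nonneg _) (fun k hk => ?_) :
        _ ≤ ∏ _k ∈ Finset.univ.erase i, L).trans (le_of_eq (by simp [Finset.prod_const]))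
      rw [update_of_ne (Finset.ne_of_mem_erase hk), hrow]
      have : rows Y v k = rows F₁ v k - rows F₀ v k := by
        simp [rows, hYdef, fderiv_fun_sub ((h₁.differentiable two_ne_zero) v)
          ((h₀.differentiable two_ne_zero) v)]
      rw [this, show rows F₀ v k + s • (rows F₁ v k - rows F₀ v k) =
        (1 - s) • rows F₀ v k + s • rows F₁ v k by module]
      refine (norm_add_le _ _).trans ?_
      rw [norm_smul, norm_smul, Real.norm_of_nonneg (by linarith [hs.2]), Real.norm_of_nonneg hs.1]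
      nlinarith [hL₀ v k, hL₁ v k, hs.1, hs.2]
    have hint : ∀ i, Integrable fun v => χ v * fderiv ℝ (field φ (F s) Y i) v (Pi.single i 1) :=
      fun i => (hχ.continuous.mul (((hX i).continuous_fderiv one_ne_zero).clm_apply
        continuous_const)).integrable_of_hasCompactSupport hχs.mul_right
    have hint' : ∀ i, Integrable fun v => fderiv ℝ χ v (Pi.single i 1) * field φ (F s) Y i v :=
      fun i => (((hχ.continuous_fderiv one_ne_zero).clm_apply continuous_const).mul
        (hX i).continuous).integrable_of_hasCompactSupport (hχs.fderiv_apply ℝ _).mul_right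
    have hint1 : ∀ i : Fin m, Integrable fun v => fderiv ℝ χ v (Pi.single i 1) := fun i =>
      ((hχ.continuous_fderiv one_ne_zero).clm_apply continuous_const).integrable_of_hasCompactSupport
        (hχs.fderiv_apply ℝ _)
    have heq : ∫ v, D' s v = ∑ i, -∫ v, fderiv ℝ χ v (Pi.single i 1) * field φ (F s) Y i v := by
      calc ∫ v, D' s v = ∫ v, ∑ i, χ v * fderiv ℝ (field φ (F s) Y i) v (Pi.single i 1) := by
            refine integral_congr_ae (Eventually.of_forall fun v => ?_)
            simp only [hD']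
            rw [← Finset.mul_sum, divergence hφ (hF s) (hY.of_le (by norm_num)) v]
            rfl
        _ = _ := by
            rw [integral_finsetSum _ fun i _ => hint i]
            refine Finset.sum_congr rfl fun i _ => ?_
            exact integral_mul_fderiv_eq_neg_fderiv_mul_of_integrable (hint' i) (hint i)
              ((hχ.continuous.mul (hX i).continuous).integrable_of_hasCompactSupport
                hχs.mul_right)
              (fun v _ => (hχ.differentiable one_ne_zero) v)
              (fun v _ => ((hX i).differentiable one_ne_zero) v)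
    rw [heq, Finset.mul_sum, Finset.sum_mul]
    refine (norm_sum_le _ _).trans (Finset.sum_le_sum fun i _ => ?_)
    rw [norm_neg]
    refine (norm_integral_le_of_norm_le
      ((hint1 i).abs.mul_const (‖Dt m‖ * (η * L ^ (m - 1)))) (Eventually.of_forall fun v => ?_)).trans
      (le_of_eq ?_)
    · rw [norm_mul, Real.norm_eq_abs, Real.norm_eq_abs]
      exact mul_le_mul_of_nonneg_left (hXb i v) (abs_nonneg _)
    · rw [integral_mul_const]; ring
  have h := norm_image_sub_le_of_norm_deriv_le_segment_01'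
    (fun s hs => (hId s hs).hasDerivWithinAt) hbound
  have e0 : F 0 = F₀ := by funext v; simp [hFdef]
  have e1 : F 1 = F₁ := by funext v; simp [hFdef, hYdef]
  simpa [hI, e0, e1] using h

/-- A null set pulls back to a set on which the Jacobian vanishes almost everywhere. -/
theorem ae_det_eq_zero {F : (Fin m → ℝ) → Fin m → ℝ} (hF : ContDiff ℝ 1 F)
    {N : Set (Fin m → ℝ)} (hN : volume N = 0) :
    ∀ᵐ v, F v ∈ N → Dt m (rows F v) = 0 := by
  rw [ae_iff]
  refine measure_null_of_locally_null _ fun x hx => ?_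
  simp only [Classical.not_imp, mem_ofPred_eq] at hx
  have hdet : ∀ y, Dt m (rows F y) = LinearMap.det (fderiv ℝ F y).toLinearMap := by
    intro y
    rw [Dt_apply, ← LinearMap.det_toMatrix', ← Matrix.det_transpose]
    rfl
  have hiso : ∀ y, Dt m (rows F y) ≠ 0 → ∃ L : (Fin m → ℝ) ≃L[ℝ] (Fin m → ℝ),
      HasStrictFDerivAt F (L : (Fin m → ℝ) →L[ℝ] (Fin m → ℝ)) y := by
    intro y hy
    have h : (fderiv ℝ F y).det ≠ 0 := by
      rw [ContinuousLinearMap.det, ← hdet]; exact hy
    refine ⟨(fderiv ℝ F y).toContinuousLinearEquivOfDetNeZero h, ?_⟩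
    rw [ContinuousLinearMap.coe_toContinuousLinearEquivOfDetNeZero]
    exact hF.contDiffAt.hasStrictFDerivAt one_ne_zero
  obtain ⟨L, hL⟩ := hiso x hx.2
  set e := hL.toOpenPartialHomeomorph F with he
  have hsrc : e.source ∈ 𝓝 x := e.open_source.mem_nhds hL.mem_toOpenPartialHomeomorph_source
  refine ⟨{v | ¬(F v ∈ N → Dt m (rows F v) = 0)} ∩ e.source,
    inter_mem_nhdsWithin _ hsrc, ?_⟩
  set T := e.target ∩ {y | Dt m (rows F (e.symm y)) ≠ 0} ∩ N with hT
  have hnull : volume (e.symm '' T) = 0 := by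
    refine addHaar_image_eq_zero_of_differentiableOn_of_addHaar_eq_zero _ (fun y hy => ?_)
      (measure_mono_null inter_subset_right hN)
    obtain ⟨L', hL'⟩ := hiso _ hy.1.2
    exact (e.hasFDerivAt_symm hy.1.1 hL'.hasFDerivAt).differentiableAt.differentiableWithinAt
  refine measure_mono_null (fun v hv => ?_) hnull
  simp only [mem_inter_iff, mem_ofPred_eq, Classical.not_imp] at hv
  refine ⟨F v, ⟨⟨e.map_source hv.2, ?_⟩, hv.1.1⟩, e.left_inv hv.2⟩
  show Dt m (rows F (e.symm (F v))) ≠ 0
  rw [show e.symm (F v) = v from e.left_inv hv.2]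
  exact hv.1.2

end

end Vale.Agent.P127.Regular
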