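import Vale.Agent.P127.Regular.Identity

/-!
Slices of the union of the lines `t ↦ β v + t v` for a Hölder map `β` are not all null.
-/

open Function MeasureTheory Set Filter Topology
open scoped Convolution NNReal

namespace Vale.Agent.P127.Regular

noncomputable section

variable {m : ℕ}

/-- The clamping retraction onto the cube of radius `r`. -/
def clamp (r : ℝ) (v : Fin m → ℝ) : Fin m → ℝ := fun i => max (-r) (min r (v i))

theorem clamp_mem {r : ℝ} (hr : 0 ≤ r) (v : Fin m → ℝ) : ‖clamp r v‖ ≤ r := by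
  refine (pi_norm_le_iff_of_nonneg hr).2 fun i => ?_
  rw [Real.norm_eq_abs, abs_le]
  exact ⟨le_max_left _ _, max_le (by linarith) (min_le_left _ _)⟩

theorem clamp_eq {r : ℝ} {v : Fin m → ℝ} (hv : ‖v‖ ≤ r) : clamp r v = v := by
  funext i
  have h := abs_le.1 ((norm_le_pi_norm v i).trans hv)
  simp [clamp, h.1, h.2]

theorem clamp_lip (r : ℝ) (v w : Fin m → ℝ) : ‖clamp r v - clamp r w‖ ≤ ‖v - w‖ := by
  refine (pi_norm_le_iff_of_nonneg (norm_nonneg _)).2 fun i => le_trans ?_ (norm_le_pi_norm _ i)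
  simp only [clamp, Pi.sub_apply, Real.norm_eq_abs]
  refine (abs_max_sub_max_le_max _ _ _ _).trans ?_
  rw [sub_self, abs_zero]
  refine max_le (abs_nonneg _) ((abs_min_sub_min_le_max _ _ _ _).trans ?_)
  rw [sub_self, abs_zero]
  exact max_le (abs_nonneg _) le_rfl

/-- A fixed mollifier. -/
def bump (m : ℕ) : ContDiffBump (0 : Fin m → ℝ) := ⟨1 / 2, 1, by norm_num, by norm_num⟩

/-- The mollifier of radius `ε`. -/
def rho (ε : ℝ) (z : Fin m → ℝ) : ℝ := (ε ^ m)⁻¹ * (bump m).normed volume (ε⁻¹ • z)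

/-- The mollified map. -/
def moll (β : (Fin m → ℝ) → Fin m → ℝ) (ε : ℝ) : (Fin m → ℝ) → Fin m → ℝ :=
  rho ε ⋆[ContinuousLinearMap.lsmul ℝ ℝ, volume] β

theorem rho_contDiff (ε : ℝ) : ContDiff ℝ (2 : ℕ∞) (rho (m := m) ε) :=
  contDiff_const.mul ((bump m).contDiff_normed.comp (contDiff_const_smul _))

theorem rho_eq_zero {ε : ℝ} (hε : 0 < ε) {z : Fin m → ℝ} (hz : ε ≤ ‖z‖) : rho ε z = 0 := by
  have : ε⁻¹ • z ∉ support ((bump m).normed volume) := by
    rw [(bump m).support_normed_eq, mem_ball_zero_iff, norm_smul, norm_inv, Real.norm_of_nonneg hε.le]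
    show ¬ ε⁻¹ * ‖z‖ < 1
    rw [inv_mul_lt_iff₀ hε]
    linarith
  rw [rho, notMem_support.1 this, mul_zero]

theorem rho_cs {ε : ℝ} (hε : 0 < ε) : HasCompactSupport (rho (m := m) ε) :=
  HasCompactSupport.intro (isCompact_closedBall 0 ε) fun z hz =>
    rho_eq_zero hε (le_of_lt (by simpa using hz))

theorem rho_nonneg {ε : ℝ} (hε : 0 < ε) (z : Fin m → ℝ) : 0 ≤ rho ε z :=
  mul_nonneg (by positivity) ((bump m).nonneg_normed _)

theorem integral_rho {ε : ℝ} (hε : 0 < ε) : ∫ z, rho (m := m) ε z = 1 := by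
  simp only [rho]
  rw [integral_const_mul, Measure.integral_comp_inv_smul_of_nonneg _ _ hε.le, (bump m).integral_normed,
    Module.finrank_fin_fun, smul_eq_mul, mul_one, inv_mul_cancel₀ (pow_pos hε m).ne']

theorem moll_apply (β : (Fin m → ℝ) → Fin m → ℝ) (ε : ℝ) (x : Fin m → ℝ) :
    moll β ε x = ∫ z, rho ε (x - z) • β z := convolution_eq_swap _

theorem moll_contDiff {β : (Fin m → ℝ) → Fin m → ℝ} (hβ : Continuous β) {ε : ℝ} (hε : 0 < ε) :
    ContDiff ℝ (2 : ℕ∞) (moll β ε) :=
  (rho_cs hε).contDiff_convolution_left _ (rho_contDiff ε) hβ.locallyIntegrable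

variable {β : (Fin m → ℝ) → Fin m → ℝ} {C α : ℝ}

/-- A global Hölder hypothesis. -/
def Hoelder (β : (Fin m → ℝ) → Fin m → ℝ) (C α : ℝ) : Prop :=
  ∀ x y, ‖β x - β y‖ ≤ C * ‖x - y‖ ^ α

theorem Hoelder.continuous (h : Hoelder β C α) (hα : 0 < α) : Continuous β := by
  refine continuous_iff_continuousAt.2 fun x => ?_
  rw [ContinuousAt, tendsto_iff_norm_sub_tendsto_zero]
  have hc : Tendsto (fun y => C * ‖y - x‖ ^ α) (𝓝 x) (𝓝 0) := by
    have : Continuous fun y => C * ‖y - x‖ ^ α :=
      continuous_const.mul ((continuous_id.sub continuous_const).norm.rpow_const fun _ => Or.inr hα.le)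
    simpa [Real.zero_rpow hα.ne'] using this.tendsto x
  exact squeeze_zero (fun y => norm_nonneg _) (fun y => h y x) hc

theorem rho_int {ε : ℝ} (hε : 0 < ε) (hβ : Continuous β) (x : Fin m → ℝ) :
    Integrable fun z => rho ε (x - z) • β z :=
  (((rho_contDiff ε).continuous.comp (continuous_const.sub continuous_id)).smul hβ)
    |>.integrable_of_hasCompactSupport
      (HasCompactSupport.intro (isCompact_closedBall x ε) fun z hz => by
        simp [rho_eq_zero hε (le_of_lt (by simpa [dist_eq_norm, norm_sub_rev] using hz))])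

theorem rho_int' {ε : ℝ} (hε : 0 < ε) (x : Fin m → ℝ) : Integrable fun z => rho ε (x - z) :=
  ((rho_contDiff ε).continuous.integrable_of_hasCompactSupport (rho_cs hε)).comp_sub_left x

theorem moll_sub {ε : ℝ} (hε : 0 < ε) (hβ : Continuous β) (x c : Fin m → ℝ) :
    moll β ε x - c = ∫ z, rho ε (x - z) • (β z - c) := by
  simp only [smul_sub]
  rw [integral_sub (rho_int hε hβ x) ((rho_int' hε x).smul_const c), integral_smul_const,
    integral_sub_left_eq_self (rho ε) volume x, integral_rho hε, one_smul, moll_apply]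

theorem moll_close (h : Hoelder β C α) (hC : 0 ≤ C) (hα : 0 < α) {ε : ℝ} (hε : 0 < ε)
    (x : Fin m → ℝ) : ‖moll β ε x - β x‖ ≤ C * ε ^ α := by
  rw [moll_sub hε (h.continuous hα)]
  refine (norm_integral_le_of_norm_le ((rho_int' hε x).mul_const (C * ε ^ α))
    (Eventually.of_forall fun z => ?_)).trans (le_of_eq ?_)
  · rw [norm_smul, Real.norm_of_nonneg (rho_nonneg hε _)]
    by_cases hz : ε ≤ ‖x - z‖
    · simp [rho_eq_zero hε hz]
    · refine mul_le_mul_of_nonneg_left ((h z x).trans ?_) (rho_nonneg hε _)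
      rw [norm_sub_rev] at hz
      exact mul_le_mul_of_nonneg_left
        (Real.rpow_le_rpow (norm_nonneg _) (le_of_not_ge hz) hα.le) hC
  · rw [integral_mul_const, integral_sub_left_eq_self (rho ε) volume x, integral_rho hε, one_mul]

theorem moll_fderiv (h : Hoelder β C α) (hC : 0 ≤ C) (hα : 0 < α) (hα1 : α ≤ 1) :
    ∃ M, 0 ≤ M ∧ ∀ ε, 0 < ε → ∀ x, ‖fderiv ℝ (moll β ε) x‖ ≤ M * ε ^ (α - 1) := by
  obtain ⟨M₀, hM₀⟩ : ∃ M : ℝ≥0, LipschitzWith M ((bump m).normed volume) :=
    ContDiff.lipschitzWith_of_hasCompactSupport ((bump m).hasCompactSupport_normed)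
      ((bump m).contDiff_normed (n := 1)) one_ne_zero
  refine ⟨M₀ * C * 2 * 4 ^ m, by positivity, fun ε hε x => ?_⟩
  refine norm_fderiv_le_of_lip' ℝ (by positivity) ?_
  filter_upwards [Metric.closedBall_mem_nhds x hε] with y hy
  rw [Metric.mem_closedBall, dist_eq_norm] at hy
  have hβ := h.continuous hα
  have key : moll β ε y - moll β ε x = ∫ z, (rho ε (y - z) - rho ε (x - z)) • (β z - β x) := by
    rw [← sub_sub_sub_cancel_right _ _ (β x), moll_sub hε hβ, moll_sub hε hβ,
      ← integral_sub ((rho_int hε hβ y).sub ((rho_int' hε y).smul_const (β x)) |>.congr ?_)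
        ((rho_int hε hβ x).sub ((rho_int' hε x).smul_const (β x)) |>.congr ?_)]
    · exact integral_congr_ae (Eventually.of_forall fun z => (sub_smul _ _ _).symm)
    all_goals exact Eventually.of_forall fun z => (smul_sub _ _ _).symm
  set B : ℝ := (ε ^ m)⁻¹ * (M₀ * (ε⁻¹ * ‖y - x‖)) * (C * (2 * ε ^ α)) with hB
  rw [key]
  refine (norm_integral_le_of_norm_le (g := (Metric.closedBall x (2 * ε)).indicator fun _ => B)
    ((integrable_indicator_iff measurableSet_closedBall).2
      (integrableOn_const measure_closedBall_lt_top.ne)) (Eventually.of_forall fun z => ?_)).trans ?_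
  · by_cases hz : z ∈ Metric.closedBall x (2 * ε)
    · rw [indicator_of_mem hz, norm_smul]
      rw [Metric.mem_closedBall, dist_eq_norm] at hz
      refine mul_le_mul ?_ ((h z x).trans ?_) (norm_nonneg _) (by positivity)
      · simp only [rho]
        rw [← mul_sub, norm_mul, Real.norm_of_nonneg (by positivity : (0 : ℝ) ≤ (ε ^ m)⁻¹)]
        refine mul_le_mul_of_nonneg_left ((hM₀.norm_sub_le _ _).trans (le_of_eq ?_)) (by positivity)
        rw [← smul_sub, norm_smul, norm_inv, Real.norm_of_nonneg hε.le, sub_sub_sub_cancel_right]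
      · refine mul_le_mul_of_nonneg_left ((Real.rpow_le_rpow (norm_nonneg _) hz hα.le).trans ?_) hC
        rw [Real.mul_rpow zero_le_two hε.le]
        exact mul_le_mul_of_nonneg_right
          ((Real.rpow_le_rpow_of_exponent_le one_le_two hα1).trans_eq (Real.rpow_one _))
          (Real.rpow_nonneg hε.le _)
    · have hz2 : 2 * ε < ‖x - z‖ := by simpa [dist_eq_norm, norm_sub_rev] using hz
      have hz1 : ε ≤ ‖y - z‖ := by
        have := norm_sub_le_norm_sub_add_norm_sub x y z
        rw [norm_sub_rev x y] at this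
        linarith
      simp [indicator_of_notMem hz, rho_eq_zero hε hz1, rho_eq_zero hε (by linarith : ε ≤ ‖x - z‖)]
  · rw [integral_indicator_const _ measurableSet_closedBall, measureReal_def,
      Real.volume_pi_closedBall _ (by positivity), ENNReal.toReal_ofReal (by positivity),
      Fintype.card_fin, hB, smul_eq_mul, Real.rpow_sub hε, Real.rpow_one]
    refine le_of_eq ?_
    rw [show 2 * (2 * ε) = 4 * ε by ring, mul_pow]
    field_simp

/-- The rows of the slice map. -/
theorem rows_slice (hβ : Continuous β) {ε : ℝ} (hε : 0 < ε) (t : ℝ) (v : Fin m → ℝ) :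
    rows (fun w => moll β ε w + t • w) v =
      fun i => rows (moll β ε) v i + t • Pi.single i 1 := by
  funext i
  have hd := ((moll_contDiff hβ hε).differentiable (by norm_num)) v
  show fderiv ℝ (fun w => moll β ε w + t • w) v _ = _
  have h1 : HasFDerivAt (fun w => moll β ε w + t • w)
      (fderiv ℝ (moll β ε) v + t • ContinuousLinearMap.id ℝ (Fin m → ℝ)) v :=
    hd.hasFDerivAt.add ((hasFDerivAt_id v).const_smul t)
  rw [h1.fderiv]
  simp [rows]

/-- If a slice of the union of the lines is null, the signed volume tends to zero. -/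
theorem push_tendsto_zero {r : ℝ} {χ : (Fin m → ℝ) → ℝ} (hm : 1 ≤ m) (hC : 0 ≤ C) (hα : 0 < α)
    (hα1 : α ≤ 1) (hγ : ((m : ℝ) - 1) < α * m) (h : Hoelder β C α) (hχ : ContDiff ℝ 1 χ)
    (hχs : tsupport χ ⊆ Metric.closedBall 0 r) (t : ℝ)
    (hnull : volume ((fun v => β v + t • v) '' Metric.closedBall 0 r) = 0) :
    Tendsto (fun k : ℕ => push χ (fun _ => 1) fun v => moll β ((1 / 2) ^ k) v + t • v) atTop
      (𝓝 0) := by
  classical
  have hβ := h.continuous hα
  have hχc : HasCompactSupport χ := (isCompact_closedBall _ _).of_isClosed_subset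
    (isClosed_tsupport χ) hχs
  set ε : ℕ → ℝ := fun k => (1 / 2) ^ k with hε
  have hε0 : ∀ k, 0 < ε k := fun k => by positivity
  have hε1 : ∀ k, ε k ≤ 1 := fun k => pow_le_one₀ (by norm_num) (by norm_num)
  set F : ℕ → (Fin m → ℝ) → Fin m → ℝ := fun k v => moll β (ε k) v + t • v with hF
  have hFs : ∀ k, ContDiff ℝ 2 (F k) := fun k =>
    (moll_contDiff hβ (hε0 k)).add (contDiff_id.const_smul t)
  obtain ⟨M, hM, hMb⟩ := moll_fderiv h hC hα hα1
  set L : ℝ := 2 * M + |t| with hL
  set γ : ℝ := α + (α - 1) * (m - 1 : ℕ) with hγdef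
  have hγ0 : 0 < γ := by
    rw [hγdef, Nat.cast_sub hm, Nat.cast_one]; nlinarith
  set q : ℝ := (1 / 2) ^ γ with hq
  have hq0 : 0 ≤ q := Real.rpow_nonneg (by norm_num) _
  have hq1 : q < 1 := Real.rpow_lt_one (by norm_num) (by norm_num) hγ0
  set A : ℝ := ‖Dt m‖ * (∑ i : Fin m, ∫ v, |fderiv ℝ χ v (Pi.single i 1)|) *
    (2 * C * L ^ (m - 1)) with hA
  have hrows : ∀ k v i, ‖rows (F k) v i‖ ≤ M * ε k ^ (α - 1) + |t| := by
    intro k v i
    rw [show rows (F k) v = _ from rows_slice hβ (hε0 k) t v]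
    have h1 : ‖(Pi.single i (1 : ℝ) : Fin m → ℝ)‖ = 1 := by simp [Pi.norm_single]
    refine (norm_add_le _ _).trans (add_le_add ?_ ?_)
    · refine ((fderiv ℝ (moll β (ε k)) v).le_opNorm _).trans ?_
      rw [h1, mul_one]
      exact hMb _ (hε0 k) v
    · rw [norm_smul, h1, mul_one, Real.norm_eq_abs]
  have hsucc : ∀ k, ε (k + 1) = 1 / 2 * ε k := fun k => pow_succ' _ k
  have hstep : ∀ φ : (Fin m → ℝ) → ℝ, ContDiff ℝ 1 φ → (∀ y, |φ y| ≤ 1) → ∀ k,
      dist (push χ φ (F k)) (push χ φ (F (k + 1))) ≤ A * q ^ k := by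
    intro φ hφ hφ1 k
    rw [Real.dist_eq, abs_sub_comm]
    have he : ε k ^ (α - 1) ≥ 1 := Real.one_le_rpow_of_pos_of_le_one_of_nonpos (hε0 k) (hε1 k)
      (by linarith)
    have hhalf : ε (k + 1) ^ (α - 1) ≤ 2 * ε k ^ (α - 1) := by
      rw [hsucc, Real.mul_rpow (by norm_num) (hε0 k).le]
      refine mul_le_mul_of_nonneg_right ?_ (Real.rpow_nonneg (hε0 k).le _)
      rw [one_div, Real.inv_rpow zero_le_two, ← Real.rpow_neg zero_le_two]
      exact (Real.rpow_le_rpow_of_exponent_le one_le_two (by linarith)).trans_eq (Real.rpow_one _)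
    have hb₀ : ∀ v i, ‖rows (F k) v i‖ ≤ L * ε k ^ (α - 1) := fun v i => (hrows k v i).trans (by
      rw [hL]; nlinarith [abs_nonneg t])
    have hb₁ : ∀ v i, ‖rows (F (k + 1)) v i‖ ≤ L * ε k ^ (α - 1) := fun v i =>
      (hrows (k + 1) v i).trans (by rw [hL]; nlinarith [abs_nonneg t])
    have hd : ∀ v, ‖F (k + 1) v - F k v‖ ≤ 2 * C * ε k ^ α := by
      intro v
      simp only [hF, add_sub_add_right_eq_sub]
      refine (norm_sub_le_norm_sub_add_norm_sub _ (β v) _).trans ?_
      rw [norm_sub_rev (β v)]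
      have h1 := moll_close h hC hα (hε0 (k + 1)) v
      have h2 := moll_close h hC hα (hε0 k) v
      have h3 : ε (k + 1) ^ α ≤ ε k ^ α :=
        Real.rpow_le_rpow (hε0 _).le (by rw [hsucc]; linarith [hε0 k]) hα.le
      nlinarith
    refine (push_sub_le hχ hχc hφ hφ1 (hFs k) (hFs (k + 1)) hd hb₀ hb₁).trans (le_of_eq ?_)
    have hqk : q ^ k = ε k ^ α * (ε k ^ (α - 1)) ^ (m - 1) := by
      rw [← Real.rpow_natCast (ε k ^ (α - 1)), ← Real.rpow_mul (hε0 k).le, ← Real.rpow_add (hε0 k),
        ← hγdef, hq, hε, Real.rpow_pow_comm (by norm_num)]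
    rw [hA, hqk, mul_pow]
    ring
  have hfar : ∀ φ : (Fin m → ℝ) → ℝ, ContDiff ℝ 1 φ → (∀ y, |φ y| ≤ 1) → ∀ k l, k ≤ l →
      |push χ φ (F l)| ≤ |push χ φ (F k)| + A * q ^ k / (1 - q) := by
    intro φ hφ hφ1 k l hkl
    have hA0 : 0 ≤ A := by
      rw [hA]
      exact mul_nonneg (mul_nonneg (norm_nonneg _) (Finset.sum_nonneg fun i _ =>
        integral_nonneg fun v => abs_nonneg _)) (by positivity)
    have h1 : dist (push χ φ (F k)) (push χ φ (F l)) ≤ A * q ^ k / (1 - q) := by
      refine (dist_le_Ico_sum_of_dist_le (f := fun n => push χ φ (F n)) hkl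
        (fun {n} _ _ => hstep φ hφ hφ1 n)).trans ?_
      rw [← Finset.mul_sum, mul_div_assoc]
      exact mul_le_mul_of_nonneg_left (geom_sum_Ico_le_of_lt_one hq0 hq1) hA0
    rw [Real.dist_eq] at h1
    have := abs_sub_abs_le_abs_sub (push χ φ (F l)) (push χ φ (F k))
    rw [abs_sub_comm] at h1
    linarith
  set K := (fun v => β v + t • v) '' Metric.closedBall 0 r with hK
  have hKc : IsCompact K := (isCompact_closedBall _ _).image (hβ.add (continuous_const_smul t))
  obtain ⟨g, hgsupp, hgd, hgr⟩ := hKc.isClosed.isOpen_compl.exists_contDiff_support_eq (n := 1)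
  set φ : ℕ → (Fin m → ℝ) → ℝ := fun j y => Real.smoothTransition (2 - j * g y) with hφ
  have hφd : ∀ j, ContDiff ℝ 1 (φ j) := fun j =>
    Real.smoothTransition.contDiff.comp (contDiff_const.sub (contDiff_const.mul hgd))
  have hφ1 : ∀ j y, |φ j y| ≤ 1 := fun j y => by
    rw [abs_of_nonneg (Real.smoothTransition.nonneg _)]; exact Real.smoothTransition.le_one _
  have hg0 : ∀ y, g y = 0 ↔ y ∈ K := fun y => by
    rw [← notMem_support, hgsupp, notMem_compl_iff]
  have hev : ∀ j, ∀ᶠ l in atTop, push χ (fun _ => 1) (F l) = push χ (φ j) (F l) := by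
    intro j
    obtain ⟨d, hd, hsub⟩ := hKc.exists_thickening_subset_open
      (isOpen_lt (continuous_const.mul hgd.continuous) continuous_const)
      (fun y hy => show (j : ℝ) * g y < 1 by simp [(hg0 y).2 hy])
    have hlim : Tendsto (fun l => C * ε l ^ α) atTop (𝓝 0) := by
      have := ((tendsto_pow_atTop_nhds_zero_of_lt_one (by norm_num : (0 : ℝ) ≤ 1 / 2)
        (by norm_num)).rpow_const (p := α) (Or.inr hα.le)).const_mul C
      simpa [hε, Real.zero_rpow hα.ne'] using this
    filter_upwards [hlim.eventually_lt_const hd] with l hl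
    refine integral_congr_ae (Eventually.of_forall fun v => ?_)
    show χ v * (1 * Dt m (rows (F l) v)) = χ v * (φ j (F l v) * Dt m (rows (F l) v))
    by_cases hv : v ∈ tsupport χ
    · have hmem : F l v ∈ Metric.thickening d K := by
        refine Metric.mem_thickening_iff.2 ⟨_, mem_image_of_mem _ (hχs hv), ?_⟩
        rw [dist_eq_norm]
        simp only [hF, add_sub_add_right_eq_sub]
        exact (moll_close h hC hα (hε0 l) v).trans_lt hl
      have h1 : (j : ℝ) * g (F l v) < 1 := hsub hmem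
      have : φ j (F l v) = 1 := Real.smoothTransition.one_of_one_le (by linarith)
      rw [this]
    · simp [image_eq_zero_of_notMem_tsupport hv]
  have hj : ∀ k, Tendsto (fun j => push χ (φ j) (F k)) atTop (𝓝 0) := by
    intro k
    have hr : Continuous fun v => Dt m (rows (F k) v) := (Dt m).cont.comp
      (continuous_pi fun i => ((hFs k).continuous_fderiv two_ne_zero).clm_apply continuous_const)
    have := tendsto_integral_of_dominated_convergence (μ := (volume : Measure (Fin m → ℝ)))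
      (F := fun j v => χ v * (φ j (F k v) * Dt m (rows (F k) v))) (f := fun _ => 0)
      (fun v => |χ v * Dt m (rows (F k) v)|)
      (fun j => (hχ.continuous.mul (((hφd j).continuous.comp (hFs k).continuous).mul hr))
        |>.aestronglyMeasurable)
      ((hχ.continuous.mul hr).integrable_of_hasCompactSupport hχc.mul_right).abs
      (fun j => Eventually.of_forall fun v => by
        simp only [Real.norm_eq_abs, abs_mul]
        exact mul_le_mul_of_nonneg_left
          (mul_le_of_le_one_left (abs_nonneg _) (hφ1 j _)) (abs_nonneg _)) ?_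
    · simpa [push] using this
    filter_upwards [ae_det_eq_zero ((hFs k).of_le (by norm_num)) hnull] with v hv
    by_cases hmem : F k v ∈ K
    · simp [hv hmem]
    · have hg : 0 < g (F k v) :=
        lt_of_le_of_ne (hgr (mem_range_self _)).1 (Ne.symm fun h0 => hmem ((hg0 _).1 h0))
      refine tendsto_const_nhds.congr' ?_
      filter_upwards [eventually_ge_atTop ⌈2 / g (F k v)⌉₊] with j hj
      have : φ j (F k v) = 0 := Real.smoothTransition.zero_of_nonpos (by
        have := Nat.ceil_le.1 hj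
        rw [div_le_iff₀ hg] at this
        linarith)
      simp [this]
  rw [Metric.tendsto_atTop]
  intro δ hδ
  have hpow : Tendsto (fun k => A * q ^ k / (1 - q)) atTop (𝓝 0) := by
    simpa using ((tendsto_pow_atTop_nhds_zero_of_lt_one hq0 hq1).const_mul A).div_const (1 - q)
  obtain ⟨k, hk⟩ := (hpow.eventually_lt_const (half_pos hδ)).exists
  obtain ⟨j, hjk⟩ := (Metric.tendsto_nhds.1 (hj k) (δ / 2) (half_pos hδ)).exists
  obtain ⟨N, hN⟩ := eventually_atTop.1 ((hev j).and (eventually_ge_atTop k))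
  refine ⟨N, fun l hl => ?_⟩
  obtain ⟨h1, h2⟩ := hN l hl
  show dist (push χ (fun _ => 1) (F l)) 0 < δ
  rw [Real.dist_eq, sub_zero, h1]
  rw [Real.dist_eq, sub_zero] at hjk
  have := hfar (φ j) (hφd j) (hφ1 j) k l h2
  linarith

/-- Not all slices in an interval of times are null. -/
theorem exists_slice_ne_zero (hm : 1 ≤ m) {r : ℝ} (hr : 0 < r) (hC : 0 ≤ C) (hα : 0 < α)
    (hα1 : α ≤ 1) (hγ : ((m : ℝ) - 1) < α * m) (h : Hoelder β C α) (T : Finset ℝ)
    (hT : T.card = m + 1) :
    ∃ t ∈ T, volume ((fun v => β v + t • v) '' Metric.closedBall 0 r) ≠ 0 := by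
  classical
  by_contra! hnull
  have hβ := h.continuous hα
  set b : ContDiffBump (0 : Fin m → ℝ) := ⟨r / 2, r, by positivity, by linarith⟩ with hb
  set χ : (Fin m → ℝ) → ℝ := fun v => b v with hχdef
  have hχ : ContDiff ℝ 1 χ := b.contDiff
  have hχs : tsupport χ ⊆ Metric.closedBall 0 r := b.tsupport_eq.le
  have hχc : HasCompactSupport χ := b.hasCompactSupport
  have hpos : 0 < ∫ v, χ v := b.integral_pos
  set c : ℝ → ℝ := fun t => ∏ s ∈ T.erase t, (t - s) with hc
  have hlim : Tendsto (fun k : ℕ => ∑ t ∈ T, push χ (fun _ => 1)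
      (fun v => moll β ((1 / 2) ^ k) v + t • v) / c t) atTop (𝓝 0) := by
    simpa using tendsto_finsetSum T fun t ht =>
      (push_tendsto_zero hm hC hα hα1 hγ h hχ hχs t (hnull t ht)).div_const (c t)
  have heq : ∀ k : ℕ, ∑ t ∈ T, push χ (fun _ => 1)
      (fun v => moll β ((1 / 2) ^ k) v + t • v) / c t = ∫ v, χ v := by
    intro k
    have hε : (0 : ℝ) < (1 / 2) ^ k := by positivity
    simp only [push, one_mul, rows_slice hβ hε]
    have hint : ∀ t ∈ T, Integrable fun v => χ v * Dt m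
        (fun i => rows (moll β ((1 / 2) ^ k)) v i + t • Pi.single i 1) / c t := fun t _ =>
      ((hχ.continuous.mul ((Dt m).cont.comp (continuous_pi fun i =>
        (((moll_contDiff hβ hε).continuous_fderiv (by norm_num)).clm_apply continuous_const).add
          continuous_const))).integrable_of_hasCompactSupport hχc.mul_right).div_const _
    simp only [← integral_div]
    rw [← integral_finsetSum _ hint]
    refine integral_congr_ae (Eventually.of_forall fun v => ?_)
    set R : Matrix (Fin m) (Fin m) ℝ := Matrix.of (rows (moll β ((1 / 2) ^ k)) v) with hR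
    have hev : ∀ t : ℝ, Dt m (fun i => rows (moll β ((1 / 2) ^ k)) v i + t • Pi.single i 1) =
        (-R).charpoly.eval t := by
      intro t
      rw [Dt_apply, Matrix.eval_charpoly]
      congr 1
      ext i j
      rcases eq_or_ne i j with rfl | hij
      · simp [hR]; ring
      · simp [hR, hij, Ne.symm hij]
    have hlead := Lagrange.leadingCoeff_eq_sum (s := T) (v := fun t : ℝ => t) (fun _ _ _ _ e => e)
      (P := (-R).charpoly)
      (by rw [Polynomial.degree_eq_natDegree (Matrix.charpoly_monic _).ne_zero,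
        Matrix.charpoly_natDegree_eq_dim, Fintype.card_fin, hT]; norm_cast)
    rw [(Matrix.charpoly_monic _).leadingCoeff] at hlead
    simp only [hev, mul_div_assoc, ← Finset.mul_sum, hc, ← hlead, mul_one]
  simp only [heq] at hlim
  exact hpos.ne' (tendsto_nhds_unique tendsto_const_nhds hlim)

/-- The union of the lines has positive measure. -/
theorem lines_ne_null (hm : 1 ≤ m) {r : ℝ} (hr : 0 < r) (hC : 0 ≤ C) (hα : 0 < α) (hα1 : α ≤ 1)
    (hγ : ((m : ℝ) - 1) < α * m)
    (h : ∀ x y, ‖x‖ ≤ r → ‖y‖ ≤ r → ‖β x - β y‖ ≤ C * ‖x - y‖ ^ α) {t₀ t₁ : ℝ} (ht : t₀ < t₁) :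
    volume ((fun p : ℝ × (Fin m → ℝ) => (p.1, β p.2 + p.1 • p.2)) ''
      (Icc t₀ t₁ ×ˢ Metric.closedBall 0 r)) ≠ 0 := by
  classical
  set β' := fun v => β (clamp r v) with hβ'
  have h' : Hoelder β' C α := fun x y => (h _ _ (clamp_mem hr.le x) (clamp_mem hr.le y)).trans
    (mul_le_mul_of_nonneg_left (Real.rpow_le_rpow (norm_nonneg _) (clamp_lip r x y) hα.le) hC)
  have heq : ∀ v ∈ Metric.closedBall (0 : Fin m → ℝ) r, β v = β' v := fun v hv => by
    simp [hβ', clamp_eq (mem_closedBall_zero_iff.1 hv)]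
  rw [image_congr (g := fun p : ℝ × (Fin m → ℝ) => (p.1, β' p.2 + p.1 • p.2))
    fun p hp => by simp [heq p.2 hp.2]]
  set G := (fun p : ℝ × (Fin m → ℝ) => (p.1, β' p.2 + p.1 • p.2)) ''
    (Icc t₀ t₁ ×ˢ Metric.closedBall 0 r) with hG
  intro h0
  have hcont := h'.continuous hα
  have hGm : MeasurableSet G := ((isCompact_Icc.prod (isCompact_closedBall _ _)).image
    (continuous_fst.prodMk ((hcont.comp continuous_snd).add
      (continuous_fst.smul continuous_snd)))).isClosed.measurableSet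
  rw [Measure.volume_eq_prod, Measure.measure_prod_null hGm] at h0
  set S : Set ℝ := {t ∈ Icc t₀ t₁ | volume (Prod.mk t ⁻¹' G) = 0} with hS
  have hSinf : S.Infinite := by
    intro hfin
    have h1 : volume (Icc t₀ t₁ \ S) = 0 := measure_mono_null
      (fun t ht' => fun e => ht'.2 ⟨ht'.1, e⟩) (ae_iff.1 h0)
    have h2 : volume (Icc t₀ t₁) = 0 := measure_mono_null (fun t ht' => by
      by_cases e : t ∈ S
      · exact Or.inl e
      · exact Or.inr ⟨ht', e⟩) (measure_union_null (hfin.measure_zero volume) h1)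
    rw [Real.volume_Icc, ENNReal.ofReal_eq_zero] at h2
    linarith
  obtain ⟨T, hTS, hTc⟩ := hSinf.exists_subset_card_eq (m + 1)
  obtain ⟨t, htT, ht'⟩ := exists_slice_ne_zero hm hr hC hα hα1 hγ h' T hTc
  refine ht' (measure_mono_null ?_ (hTS htT).2)
  rintro _ ⟨v, hv, rfl⟩
  exact ⟨(t, v), ⟨(hTS htT).1, hv⟩, rfl⟩

end

end Vale.Agent.P127.Regular
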